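import Mathlib
import Crest.Prelude.Def_SpinGlass

/-!
# Row 339 (QAOA reaches the SK optimum): interfaces between the four parts

* `guerra`  (part G, file `R339/G/Main.lean`): `GuerraStmt`
* `partA`   (part P, file `R339/P/Main.lean`): `PartAStmt` (uses `GuerraStmt`)
* `partB`   (part B, file `R339/B/Main.lean`): `PartBStmt`
* `partQ`   (part Q, file `R339/Q/Main.lean`): `PartQStmt`

`result` follows from `PartAStmt`, `PartBStmt`, `PartQStmt` (file `R339/Final.lean`).
The mathematics of every part is written out in `R339/Plan*.lean`.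
-/

set_option autoImplicit false

namespace Crest.Agent.R339

open MeasureTheory ProbabilityTheory Filter Topology Crest.MathPhysics.SpinGlass

/-- label space: `K + 1` real labels `x 0, …, x K` -/
abbrev Lab (K : ℕ) := Fin (K + 1) → ℝ

/-- the standard Gaussian measure on labels -/
noncomputable def gL (K : ℕ) : Measure (Lab K) := Measure.pi fun _ => gaussianReal 0 1

instance (K : ℕ) : IsProbabilityMeasure (gL K) := by unfold gL; infer_instance

/-- data of an incremental message passing scheme -/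
structure Iamp (K : ℕ) where
  f : Fin K → Lab K → ℝ
  M : Lab K → ℝ
  f_meas : ∀ m, Measurable (f m)
  f_bdd : ∀ m, ∃ C, ∀ x, |f m x| ≤ C
  f_odd : ∀ m x, f m (-x) = -f m x
  f_dep : ∀ (m : Fin K) (x x' : Lab K), (∀ i : Fin (K + 1), (i : ℕ) ≤ m → x i = x' i) →
    f m x = f m x'
  f_on : ∀ m m', ∫ x, f m x * f m' x ∂gL K = if m = m' then 1 else 0
  M_meas : Measurable M
  M_odd : ∀ x, M (-x) = -M x
  M_le : ∀ x, |M x| ≤ 1

/-- the energy reached by the scheme -/
noncomputable def Iamp.value {K : ℕ} (I : Iamp K) : ℝ :=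
  ∑ m : Fin K, (∫ x, I.f m x * I.M x ∂gL K) * ∫ x, x m.succ * I.M x ∂gL K

/-- averaged optimum per spin -/
noncomputable def optE (n : ℕ) : ℝ := (∫ J, maxPairEnergy n J ∂(gaussianCouplings n)) / n

/-- averaged energy per spin of the alternating state -/
noncomputable def qaoaE (angles : List (ℝ × ℝ)) (n : ℕ) : ℝ :=
  (∫ J, expectedEnergy n J (alternatingState n J angles) ∂(gaussianCouplings n)) / n

/-! ### Parisi recursion with step functions -/

/-- one Cole–Hopf step: `(1/c) log E exp (c F (x + √Δ g))` -/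
noncomputable def chStep (c Δ : ℝ) (F : ℝ → ℝ) (x : ℝ) : ℝ :=
  c⁻¹ * Real.log (∫ g, Real.exp (c * F (x + Real.sqrt Δ * g)) ∂gaussianReal 0 1)

/-- `Phi F Δ c r l` is the Parisi function at grid point `l` when `r` steps remain -/
noncomputable def Phi (F : ℝ → ℝ) (Δ : ℝ) (c : ℕ → ℝ) : ℕ → ℕ → ℝ → ℝ
  | 0, _ => F
  | r + 1, l => chStep (c l) Δ (Phi F Δ c r (l + 1))

/-- zero temperature Parisi functional of the step function `γ = c l` on `[l/K, (l+1)/K)` -/
noncomputable def parisi (F : ℝ → ℝ) (K : ℕ) (c : ℕ → ℝ) : ℝ :=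
  Phi F (1 / K) c K 0 0 - ∑ l ∈ Finset.range K, c l * (2 * l + 1) / (4 * (K : ℝ) ^ 2)

/-- Guerra's upper bound at zero temperature -/
def GuerraStmt : Prop :=
  ∀ (F : ℝ → ℝ) (C : ℝ) (K : ℕ) (c : ℕ → ℝ), Continuous F → (∀ x, |x| ≤ F x) →
    (∀ x, F x ≤ |x| + C) → 0 < K → (∀ l, 0 < c l) → Monotone c →
    ∀ ε > (0 : ℝ), ∃ N : ℕ, ∀ n ≥ N, optE n ≤ parisi F K c + ε

/-- the classical part: message passing reaches the optimum -/
def PartAStmt : Prop :=
  ∀ ε > (0 : ℝ), ∃ (K : ℕ) (I : Iamp K) (N : ℕ), ∀ n ≥ N, optE n - ε ≤ I.value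

/-! ### The one-spin path sum -/

/-- amplitude of the spin path `a 0, …, a p` for mixer angles `β` -/
noncomputable def amp {p : ℕ} (β : Fin p → ℝ) (a : Fin (p + 1) → Bool) : ℂ :=
  ((1 / Real.sqrt 2 : ℝ) : ℂ) * ∏ k : Fin p,
    if a k.succ = a k.castSucc then ((Real.cos (β k) : ℝ) : ℂ)
    else -(Complex.I * ((Real.sin (β k) : ℝ) : ℂ))

/-- the spin value as a complex number -/
noncomputable def sg (b : Bool) : ℂ := ((spinSign b : ℝ) : ℂ)

/-- exponent of the Gaussian (vacuum) expectation along the contour: bra path `a'`, ket path `a`,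
`Γ k l` is the inner product of the `k`-th and the `l`-th field vector -/
noncomputable def quad {p : ℕ} (Γ : Fin p → Fin p → ℂ) (a' a : Fin (p + 1) → Bool) : ℂ :=
  -(∑ k, Γ k k)
    - (∑ k, ∑ l, if k < l then
        sg (a' k.castSucc) * sg (a' l.castSucc) * Γ k l
          + sg (a k.castSucc) * sg (a l.castSucc) * Γ l k else 0)
    + ∑ k, ∑ l, sg (a' k.castSucc) * sg (a l.castSucc) * Γ k l

/-- two-time correlation `⟨Z(s) Z(t)⟩` of one spin in the Gaussian field with covariance `Γ` -/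
noncomputable def psiGen {p : ℕ} (β : Fin p → ℝ) (Γ : Fin p → Fin p → ℂ) (s t : Fin (p + 1)) : ℂ :=
  ∑ a' : Fin (p + 1) → Bool, ∑ a : Fin (p + 1) → Bool,
    if a' (Fin.last p) = a (Fin.last p) then
      (starRingEnd ℂ) (amp β a') * amp β a * sg (a' s) * sg (a t) * Complex.exp (quad Γ a' a)
    else 0

/-- `G` solves the self-consistency equation of the angles `γ, β` -/
def IsGram {p : ℕ} (γ β : Fin p → ℝ) (G : Fin (p + 1) → Fin (p + 1) → ℂ) : Prop :=
  (∀ t, G t t = 1) ∧ (∀ s t, G t s = (starRingEnd ℂ) (G s t)) ∧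
    ∀ s t, G s t = psiGen β (fun k l => (γ k : ℂ) * (γ l : ℂ) * G k.castSucc l.castSucc) s t

/-- limiting energy per spin -/
noncomputable def limE {p : ℕ} (γ : Fin p → ℝ) (G : Fin (p + 1) → Fin (p + 1) → ℂ) : ℝ :=
  ∑ k, γ k * (G (Fin.last p) k.castSucc ^ 2).im

/-- the large `n` limit of the alternating state at fixed angles -/
def PartBStmt : Prop :=
  ∀ (p : ℕ) (γ β : Fin p → ℝ) (G : Fin (p + 1) → Fin (p + 1) → ℂ), IsGram γ β G →
    Tendsto (qaoaE (List.ofFn fun k => (γ k, β k))) atTop (𝓝 (limE γ G))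

/-- reachability: the limiting energies come arbitrarily close to every message passing value -/
def PartQStmt : Prop :=
  ∀ (K : ℕ) (I : Iamp K), ∀ ε > (0 : ℝ), ∃ (p : ℕ) (γ β : Fin p → ℝ)
    (G : Fin (p + 1) → Fin (p + 1) → ℂ), IsGram γ β G ∧ I.value - ε ≤ limE γ G

theorem final_of (hA : PartAStmt) (hB : PartBStmt) (hQ : PartQStmt) :
    ∀ ε > (0 : ℝ), ∃ angles : List (ℝ × ℝ), ∃ N : ℕ, ∀ n ≥ N,
      (∫ J, maxPairEnergy n J ∂(gaussianCouplings n)) / n - ε ≤
        (∫ J, expectedEnergy n J (alternatingState n J angles) ∂(gaussianCouplings n)) / n := by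
  intro ε hε
  obtain ⟨K, I, N, hN⟩ := hA (ε / 3) (by positivity)
  obtain ⟨p, γ, β, G, hG, hv⟩ := hQ K I (ε / 3) (by positivity)
  have ht := hB p γ β G hG
  have hev : ∀ᶠ n in atTop, limE γ G - ε / 3 < qaoaE (List.ofFn fun k => (γ k, β k)) n :=
    ht.eventually (lt_mem_nhds (by linarith))
  obtain ⟨N', hN'⟩ := eventually_atTop.1 hev
  refine ⟨List.ofFn fun k => (γ k, β k), max N N', fun n hn => ?_⟩
  have h1 := hN n (le_trans (le_max_left _ _) hn)
  have h2 := hN' n (le_trans (le_max_right _ _) hn)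
  change optE n - ε ≤ qaoaE _ n
  linarith

end Crest.Agent.R339
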