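/-!
# Row 339, plans for part G (Guerra) and part B (large n limit)

Definitions are in `R339/Iface.lean`.

## Part G: prove `GuerraStmt` (file `R339/G/Main.lean`, `theorem guerra : GuerraStmt`)

Notation: q_l = l/K, m_l = c l (0 < m_0 ≤ m_1 ≤ …), v_l = (q_{l+1}² − q_l²)/2 = (2l+1)/(2K²),
a_l = m_l² v_l / 2, N_l = ⌈exp(n a_l)⌉ children at level l (l = 0..K−1). Leaves α = (α_0..α_{K−1}),
α_l ∈ Fin N_l.  For two leaves let j(α,α') = length of the common prefix, q = q_j.

G1 (Sudakov–Fernique, finite index set T, two centred Gaussian vectors written as linear images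
   X_t = Σ_e A t e · g e, Z_t = Σ_e' B t e' · g' e' of standard Gaussian vectors on finite types):
   if ‖A t − A s‖² ≤ ‖B t − B s‖² for all s,t then E max X ≤ E max Z.
   Proof (Chatterjee): F_β(x) = β⁻¹ log Σ exp(β x_t); φ(θ) = E F_β(√(1−θ) X + √θ Z) (or cos/sin path),
   Gaussian integration by parts gives φ'(θ) = (β/4) Σ_{s,t} E[p_s p_t] (‖B t − B s‖² − ‖A t − A s‖²) ≥ 0,
   and max ≤ F_β ≤ max + log|T|/β.  (grep the team repo first: "Stein", "gaussian_ibp", Lib/RMT …)
G2 index t = (σ, α).  X(σ,α) = H(σ) + √n Y(α), Y(α) = Σ_l √v_l g_{(α_0..α_l)} (independent of J),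
   Z(σ,α) = Σ_i σ_i z_i(α), z_i(α) = Σ_l √(1/K) g_{i,(α_0..α_l)}.
   With R = (1/n) Σ σ_i σ'_i:  E(H−H')² = n(1−R²),  E(√nY−√nY')² = n(1−q²),  E(Z−Z')² = 2n(1−Rq);
   (R−q)² ≥ 0 gives E(X−X')² ≤ E(Z−Z')².  So  E max H + √n E max Y = E max X ≤ E max Z = E max_α Σ_i |z_i(α)|.
G3 upper bound.  Backward induction on the level: for z ∈ ℝ^n let W_l(z) be the random variable
   max over the sub-tree below a level-l vertex of Σ_i F(z_i + increments); claim
   E exp(m_l W_l(z)) ≤ exp(m_l (Σ_i Φ_l(z_i) + Σ_{j ≥ l} log N_j / m_j)),   Φ_l = Phi F (1/K) c (K−l) l.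
   Step: exp(m max_children) ≤ Σ_children exp(m ·); Jensen (m_l ≤ m_{l+1}: E Y^{m_l/m_{l+1}} ≤ (E Y)^{m_l/m_{l+1}});
   product structure ∫ exp(m Σ_i Φ(z_i + √Δ g_i)) = Π_i.  All Φ_l satisfy Φ_l(x) ≤ |x| + C_l, continuous.
   Finally E W_0 ≤ m_0⁻¹ log E exp(m_0 W_0) ≤ n Φ_0(0) + Σ log N_l / m_l,  log N_l ≤ n a_l + log 2.
   (It is easiest to define the tree expectation recursively: a functional on `l`, with the measure
   `Measure.pi` over children of (Gaussian vector × subtree); or index all Gaussians by the finite type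
   Σ l, (Π j ≤ l, Fin N_j) and use `measurePreserving_piEquivPiSubtypeProd`/`piCurry`.)
G4 lower bound.  E max_α Y ≥ Σ_l √v_l · μ(N_l), μ(N) = E max of N iid N(0,1) (greedy choice, induction on
   levels), and μ(N) ≥ (1 − o(1)) √(2 log N) as N → ∞: P(max ≤ t) = (1 − P(g>t))^N ≤ exp(−N P(g>t)),
   P(g > t) ≥ (2π)^{-1/2} exp(−(t+1)²/2); E max ≥ t P(max>t) − E[|g_1|; max ≤ t] ≥ t(1−p) − √p.
   So √n E max Y ≥ (1−o(1)) n Σ √(2 a_l v_l) = (1−o(1)) n Σ m_l v_l.
G5 total: optE n ≤ Φ_0(0) + Σ (a_l/m_l − m_l v_l) + o(1) = Φ_0(0) − Σ m_l v_l/2 + o(1) = parisi + o(1).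

## Part B: prove `PartBStmt` (file `R339/B/Main.lean`, `theorem partB : PartBStmt`)

Contour index C = Fin p ⊕ Fin p ⊕ Unit (bra times, ket times, the common last time) or Fin(p+1)×Bool with the
constraint a'(last) = a(last).  One-spin path a : C → ±1, weight f(a) = conj(amp β a') · amp β a,
Γ_u = +γ_k on the bra index k, −γ_k on the ket index k, 0 at the last time.
For N spins and coupling ε ≥ 0 (energy √ε Σ_{i<j} J_ij σ_i σ_j) and F a function of the matrix
R_{uv} = ε Σ_i a^i_u a^i_v (normalise by ε, NOT 1/N; the diagonal is εN) put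
   m_{N,ε}[F] = Σ_{a^1..a^N} Π_i f(a^i) · exp(−(ε/2) Σ_{i<j} (Σ_u Γ_u a^i_u a^j_u)²) · F(R(a)).
B1 (operator representation) For any insertions: m_{N,ε}-type sum with F replaced by Π_{r} a^{i_r}_{u_r}
   equals E_J ⟨ψ', ψ''⟩ (last-time insertions act on one of them) where ψ', ψ'' are alternating states with
   diagonal ±1 operators inserted: unit vectors.  (Path expansion of `alternatingState`, Gaussian charFun
   E exp(i J s) = exp(−s²/2), product over pairs.)  Hence |m[Π_{r≤k} R_{u_r v_r}]| ≤ (εN)^k, m[1] = 1.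
B2 (energy) qaoaE angles n = (i/2) Σ_u Γ_u m_{n,1/n}[R_{u,last}²]  exactly (E[J e^{iJs}] = i s e^{−s²/2};
   the diagonal terms i = j cancel because Σ_u Γ_u = 0).
B3 (class of test functions) 𝓔 = span of monomial(R) · exp(Σ λ_{uv} R_{uv}).  By expanding the exponential,
   m[P·exp⟨λ,R⟩] = Σ_k m[P ⟨λ,R⟩^k]/k!, dominated by ‖P‖₁ ρ^{deg} (ρ‖λ‖₁)^k/k! if εN ≤ ρ (Tannery:
   `tendsto_tsum_of_dominated_convergence`).  So: if two linear functionals agree asymptotically on polynomials they do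
   on 𝓔.  Quantify ALWAYS over all sequences (N_n, ε_n) with N_n → ∞, ε_n N_n → 1 (then (N_n − 1, ε_n) is one too).
B4 (cavity identity) by symmetry in the spins, for a monomial P of degree d,
   m_{N,ε}[P · R_{uv}] = εN Σ_a f(a) a_u a_v m_{N−1,ε}[ P(R + ε aaᵀ) · E_a(R) ],
   E_a(R) = exp(−½ Σ_{u',v'} Γ_{u'} Γ_{v'} a_{u'} a_{v'} R_{u'v'});  P(R + ε aaᵀ) = P(R) + O(ε) polynomial.
   Likewise m_{N,ε}[P] = Σ_a f(a) m_{N−1,ε}[P(R+εaaᵀ) E_a(R)].
B5 (downward induction, causality) For k = p, …, 0 let π_k be the substitution on matrices (R symmetric):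
   for pairs (u,v) whose later time is ≥ k replace a later index that is a bra index by the ket index of the same
   time, and R_{u,u'} (u,u' bra/ket of the same time ≥ k, and R_{uu}) by 1.   Claim_k: m[F] − m[F∘π_k] → 0 for F ∈ 𝓔.
   Claim_p: only R_{uu} = εN → 1.  Claim_{k+1} ⇒ Claim_k: for D = R_{u,(bra k)} − R_{u,(ket k)} with time(u) ≤ k, B4 gives
   m[P·D] ≈ Σ_a f(a) a_u (a'_k − a_k) m_{N−1}[(P E_a)∘π_{k+1}];  E_a∘π_{k+1} does not depend on the spins at times > k
   when a'_l = a_l for all l > k — more precisely sum first over the last time (unitarity of the mixer forces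
   a'_{p−1} = a_{p−1}), then E_a∘π_{k+1} no longer depends on that common value (if p−1 ≥ k+1), sum again, … until
   a'_k = a_k is forced; so the sum vanishes identically.  With u = (ket k) this gives R_{(bra k),(ket k)} ≈ R_{uu} ≈ 1.
   Telescoping over the factors of a monomial gives Claim_k for monomials, B3 for 𝓔.
B6 (upward induction) let Ĝ be the symmetric contour matrix of G (bra k, bra l, k ≤ l ↦ G k l; ket k, ket l, k ≤ l ↦ G l k;
   bra k, ket l ↦ G k l; last time = either branch); π_0 Ĝ = Ĝ and Σ_{uv} −½ΓΓ a a Ĝ = quad (γγG) a' a.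
   Claim'_k: m[F] − m[F∘τ_k] → 0 where τ_k replaces R_{uv} by Ĝ_{uv} when both times are < k (or ≤ k).
   For max(time u, time v) = k:  m[P R_{uv}] ≈ Σ_a f(a) a_u a_v m_{N−1}[(P E_a)∘π_0]; collapse the times > k as in B5;
   what is left of E_a∘π_0 involves only entries with both times < k, hence ≈ its value at Ĝ (Claim' for earlier times);
   un-collapse: Σ_a f(a) a_u a_v E_a(Ĝ) = psiGen … = Ĝ_{uv} (IsGram).  And m_{N−1}[P∘π_0] ≈ m_N[P] (second identity of B4 with
   Σ_a f(a) E_a∘π_0 = 1).  So m[P R_{uv}] − Ĝ_{uv} m[P] → 0.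
B7 m[R_{u,last}²] → Ĝ_{u,last}²; (i/2) Σ_k γ_k (G k p² − G p k²) = Σ_k γ_k Im (G p k²) = limE.
A slicker packaging of B3–B6: take an ultrafilter limit L of the functionals along n (bounded on monomials) for the
pair of sequences (N,ε),(N−1,ε), or prove "for all admissible sequences and all monomials P: m[P] → P(Ĝ)" by the two inductions.
-/
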