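/-!
# Row 339, plan for part P: `theorem partA (hG : GuerraStmt) : PartAStmt` (file `R339/P/Main.lean`)

Definitions in `R339/Iface.lean`.  Fix b large (error O(1/b)), then c₀ > 0 small, then K large.  Δ = 1/K, t_l = l/K.
Terminal F(x) = b⁻¹ log(2 cosh(b x)) (|x| ≤ F ≤ |x| + log 2 / b).  Feasible set 𝒦 = {c : Fin K → ℝ monotone, c₀ ≤ c ≤ b}
(extend to ℕ → ℝ by b).  `parisi` is continuous on the compact 𝒦; c = a minimiser.  By Guerra it suffices to
build `I : Iamp K'` with I.value ≥ parisi F K c − (log 2 + 1/4)/b − o(1).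

P1 (the functions).  For t ∈ [t_l, t_{l+1}] put Φ(t,·) = chStep (c l) (t_{l+1} − t) Φ_{l+1}.  u = Φ_x, v = Φ_xx, w = Φ_xxx, z = Φ_xxxx.
   Class 𝒮 (stable under chStep c s for 0 < c ≤ b, s ≥ 0): smooth, even, |u| ≤ 1, 0 < v, all derivatives up to order 6 bounded by
   constants depending only on b (best: E = exp(cΦ) solves the backward heat equation, the derivatives of log of a Gaussian
   average are cumulant-like polynomials in tilted averages of derivatives of the previous Φ; for K-independent bounds use the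
   tilted Markov chain representation u_l = E~[u_{l+1}], v_l = E~[v_{l+1}] + c Var~(u_{l+1}), … together with
   E~|u_{l+1} − E~ u_{l+1}|² ≤ C Δ, which gives ‖v_l‖ ≤ ‖v_{l+1}‖ + C Δ …; or the sharper v ≤ b(1 − u²) by a TP2/“F''/F” argument).
   Also |w|, |z| ≤ C v (ratio bounds; needed so that s = −w/v, s' are bounded) by the same recursion:
   |w_l| ≤ E~|w_{l+1}| + 3c|Cov~(u,v)| + c²|κ₃~(u)|.  PDE inside a gap: Φ_t = −½(v + c u²), so with
   L = ∂_t + c u ∂_x + ½ ∂_xx:  LΦ = ½ c u², L u = 0, L v = −c v², L w = −3 c v w,  L(u²) = v², L(v²) = w² − 2c v³,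
   L(w² − 2c v³) = z² − 12 c v w² + 6 c² v⁴.
P2 (the law of X_t).  ρ_t(x) = exp(c_l Φ(t,x)) q_t(x) for t ∈ (t_l, t_{l+1}], q_t = q_{t_l⁺} * heat kernel(t − t_l),
   q_{t_l⁺} = q_{t_l} · exp(−(c_l − c_{l−1}) Φ(t_l,·)) (l ≥ 1), q_{0⁺} = exp(−c_0 Φ(0,0)) δ_0.  ρ_t is a probability density,
   (transition x → y has density p_{t−s}(y−x) exp(c(Φ(t,y) − Φ(s,x)))), and d/dt ∫ρ_t G(t,·) = ∫ρ_t L G.
   A convenient form: E[G(t,X_t)] = ∫ρ_{t_l}(x) E[G(t, x+√(t−t_l) g) exp(c(Φ(t,x+√(t−t_l) g) − Φ(t_l,x)))] dx, derivative via the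
   heat semigroup d/ds E h(s, x+√s g) = E[(h_s + ½ h_xx)].
   e(t) = E u², g(t) = E v² = e'(t), g' = E[w² − 2c v³], g'' = E[z² − 12 c v w² + 6c² v⁴] inside each grid cell; e, g are continuous on [0,1],
   |g'| ≤ C(b); g' is continuous at grid points where c does not jump; g' ≥ −C(b) c.
P3 (first variation).  ∂/∂c_l Φ(0,0) = c_l⁻¹ (EΦ(t_{l+1},X) − EΦ(t_l,X)) = ½∫_{t_l}^{t_{l+1}} e.  So with
   G(t) = ½∫_t^1 (e(s) − s) ds:  ∂parisi/∂c_l = G(t_l) − G(t_{l+1}).   (∂_c chStep = c⁻¹(E~F − chStep); chain rule through the tilted chain.)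
P4 (grid KKT).  Jumps μ_0 = c_0 − c₀, μ_l = c_l − c_{l−1}, μ_K = b − c_{K−1} ≥ 0, Σ = b − c₀ > 0.  Moving mass from an atom i (μ_i>0) to any
   grid point j is feasible, so G(t_j) ≥ G(t_i): atoms are grid minimisers of G.  No atom at t_K = 1 for K ≥ K₀(b): G(1−Δ) ≥ G(1)
   would give 1 − e(1) ≤ CΔ, but 1 − e(1) = E sech²(b X_1) ≥ κ(b) > 0 (X_1 is within b + O(1) of 0 with probability ≥ ½, see P7).
   q* = last atom (< 1), on [q*,1] c = b and Φ(t,x) = F(x) + b(1−t)/2.  h = G'' = (1 − g)/2 is C(b)-Lipschitz.  At an atom s with both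
   neighbours: |G'(s)| ≤ CΔ and h(s) ≥ −CΔ (second difference ≥ 0); at an atom s = 0: G'(0) = 0, h(0) ≥ −CΔ.
P5 (gap convexity, see P6) g is convex on every interval between consecutive atoms, so h is concave there and ≥ −CΔ; before the first atom
   c = c₀ and g' ≥ −C c₀ gives h ≥ −CΔ − C c₀.  Since ∫_0^{q*} h = G'(q*) − G'(0) = O(Δ):  ∫_0^{q*}|1 − g| ≤ η, |e(t) − t| ≤ η on [0,q*],
   g(q*) ≤ 1 + η with η = C(b)(Δ + c₀).
P6 (convexity in a gap with constant c, t > 0).  By evenness integrate over x > 0.  Put U = c u, V = c v, s = −w/v, T = s', ξ = 1/x,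
   r = −(log q_t)', μ = v² ρ_t.  U' = V, V' = −sV, z/v = s² − T, (log μ)' = −2s + U − r, integrand = μ · j, j = (s² − T)² − 12 V s² + 6 V².
   Shape facts for x > 0:
   (i) s ≥ 2U ≥ 0.  Equivalent to E''/E = c v + c² u² nonincreasing on x>0 (E = exp(cΦ)).  Under the heat flow E''/E is an average of the previous
       E''/E against the kernel cosh(xy/τ) e^{−y²/2τ} E(y) on y>0, which is TP2 (monotone likelihood ratio; Chebyshev/FKG two-point inequality).
       At a jump c decreases going backwards, so s ≥ 2 c u persists; at the terminal time s = 2 b u.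
   (ii) 0 < V ≤ ξ U (u concave on x>0 by (i), u(0) = 0).
   (iii) r ≥ 0, r concave on x>0, r(0) = 0, hence 0 ≤ r' ≤ ξ r.  At a jump r ← r + (jump) u.  First cell: q Gaussian, r = x/t.
       Heat flow: q even & nonincreasing on x>0 is preserved (reflection).  Concavity of r: r'' = −κ₃/τ³ with κ₃ the third central moment of the
       tilted density k(y) ∝ q(y) exp(−y²/2τ + xy/τ), mean m > 0 (x>0).  With ψ = −log q + y²/2τ even, ψ' concave on (0,∞) (and odd):
       D(t) = log k(m+t) − log k(m−t) has D(0) = 0, D''(t) = ψ''(|m−t|) − ψ''(m+t) ≥ 0; so k(m+t) − k(m−t) changes sign at most once, from − to +,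
       at some t₀; ∫ t (k(m+t) − k(m−t)) dt = 0; hence κ₃ = ∫ t (t² − t₀²)(k(m+t) − k(m−t)) dt ≥ 0.
   Certificate: a cubic P(s,U,V,r,ξ) with  Fc := j + P' − (2s − U + r) P ≥ 0 on {0 ≤ 2U ≤ s, 0 ≤ V ≤ ξU, r ≥ 0, 0 ≤ r' ≤ rξ, ξ > 0, T ∈ ℝ}, where
   P' is computed with s' = T, U' = V, V' = −sV, ξ' = −ξ².  Then ∫_0^∞ μ j = ∫ μ Fc − [Pμ]_0^∞ = ∫ μ Fc ≥ 0 (P → 0 at 0 since s,U,r = O(x); μ decays like a
   Gaussian, P grows at most linearly).  LP solution found numerically (even Fc ≥ 0.2577 V²):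
   P ≈ 0.4319 s³ − 4.3452 sV − 1.0201 UV + 0.4262 s²U − 0.1019 sU² + 0.2527 U³ − 0.2543 r s² − 0.5771 r s U − 0.7887 r U²
       + 0.367 r (V − ξU) − 0.0638 ξ s² + 0.2892 ξ s U − 0.3291 ξ U².
   It must be re-optimised with a margin and rationalised (C++ cutting-plane LP in notes of row 339).  Fc is homogeneous (s,U,r,ξ weight 1; V,T,r' weight 2),
   quadratic in T (complete the square), affine in r' (check r' = 0 and r' = rξ); with s = 1, U = ν/2, V = λξU (ν,λ ∈ [0,1]) it is a quadratic form in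
   (1,r,ξ) that must be copositive: certify on a subdivision of the (ν,λ) square or by an explicit SOS/Handelman identity (`nlinarith`/`positivity`/`ring`).
   helper21 will deliver this lemma (`R339/P/Cert.lean`) unless the architect has it first.
P7 (Gaussian drivers).  Q_l(x,ξ) = quantile transform of the tilted transition from t_l to t_{l+1} (inverse of the continuous strictly increasing cdf at
   cdf_N(ξ)); jointly measurable (continuous), Q(−x,−ξ) = −Q(x,ξ), law of Q(x,g) = the transition law, and |Q(x,ξ) − x − √Δ ξ| ≤ bΔ (likelihood ratio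
   comparison with N(x ± cΔ, Δ) because |u| ≤ 1).  X_0 = 0, X_{l+1} = Q_l(X_l, x_l).  M_l = u(t_l,X_l) is a bounded martingale, M_0 = 0.
   L = K q*.  If L ≤ 1 take K' = 0 (value 0; then ∫_0^{q*} E v = O(Δ)).  Else K' = L − 1, labels x_0..x_{L−1}, M = M_L,
   f_m = (M_{m+1} − M_m)/n_m, n_m² = e(t_{m+1}) − e(t_m) = ∫ g > 0 (m < K').  Orthonormal, odd, bounded, depends on x_0..x_m.
   E[f_m M] = n_m;  E[x_{m+1} M] = E[x_{m+1} M_{m+2}] = √Δ ā_{m+2} + O(Δ) with ā(t) = E v(t,X_t) (Stein + P7 bound), ā is C-Lipschitz.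
   √Δ n_m ≥ Δ − ∫_{cell}|g − 1| (√y ≥ min(y,1) ≥ 1 − |1−y|).  So value ≥ ∫_0^{q*} ā − C(η + √Δ).
P8 (energy identity).  L(xu − Φ) = v + ½ c u², LΦ = ½ c u²:  ∫_0^q ā = E[X u − Φ](q) + Φ(0,0) − ½∫_0^q c e.  With q = q*:
   parisi − ∫_0^q ā = E[Φ − X u](q) + ½∫_0^q c (e − t) − (b/4)(1 − q²) ≤ log2/b + bη/2 + (b/4)(1−q)²
   (F − xF' ≤ log 2/b, Φ(q,·) = F + b(1−q)/2), and 1 − q ≤ 1 − e(q) + η = ā(q)/b + η ≤ √(1+η)/b + η (v = b(1−u²) at time q).
-/
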